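import Vale.Agent.Lib.P050.Final

namespace Vale.Agent.Results.P050.ChainTargets

/-- Sidorenko's inequality `t(H,G) ≥ p(G)^|E(H)|` for every connected bipartite graph `H`
and every bipartite graph `G` with a bipartition `(P, V(G) \ P)` in which the neighbourhoods
of the vertices outside `P` are pairwise comparable by inclusion (a chain graph). -/
theorem result {V W : Type} [Fintype V] [Fintype W] [DecidableEq V] [DecidableEq W] [Nonempty W]
    (H : SimpleGraph V) [DecidableRel H.Adj] (G : SimpleGraph W) [DecidableRel G.Adj]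
    (hconn : H.Connected) (hbip : H.IsBipartite)
    (P : Finset W) (hP : ∀ u v, G.Adj u v → (u ∈ P ↔ v ∉ P))
    (hchain : ∀ q q', q ∉ P → q' ∉ P →
      ((∀ p, G.Adj p q → G.Adj p q') ∨ (∀ p, G.Adj p q' → G.Adj p q))) :
    ((2 * (G.edgeFinset.card : ℝ)) / (Fintype.card W : ℝ) ^ 2) ^ H.edgeFinset.card
      ≤ ((Finset.univ.filter
            (fun f : V → W => ∀ u v, H.Adj u v → G.Adj (f u) (f v))).card : ℝ)
          / (Fintype.card W : ℝ) ^ Fintype.card V := by
  obtain ⟨C⟩ := hbip
  have hfin : ∀ a : Fin 2, a = 0 ∨ a = 1 := by decide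
  refine Vale.Agent.Lib.P050.sidorenko_chain H G hconn (fun v => C v = 0) ?_
    (fun w => w ∈ P) hP hchain
  intro u v huv
  have h := C.valid huv
  constructor
  · intro h0 h1
    exact h (h0.trans h1.symm)
  · intro h1
    rcases hfin (C u) with hu | hu
    · exact hu
    · rcases hfin (C v) with hv | hv
      · exact absurd hv h1
      · exact absurd (hu.trans hv.symm) h

end Vale.Agent.Results.P050.ChainTargets
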