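import Vale.Agent.Lib.P050.Corona

namespace Vale.Agent.Results.P050.CoronaClosure

open Vale.Agent.Lib.P050

/-- Closure of Sidorenko's inequality under the corona operation: if a finite graph `H` with at
least one vertex satisfies `t(H,G) ≥ p(G)^|E(H)|` for every finite graph `G` with at least one
vertex, then so does the graph obtained from `H` by attaching one new pendant vertex to every
vertex of `H`. That graph is bipartite when `H` is, and it has at least one edge. -/
theorem result {V : Type} [Finite V] [Nonempty V] (H : SimpleGraph V) :
    (SidorenkoIneq H → SidorenkoIneq (corona H))
      ∧ (H.IsBipartite → (corona H).IsBipartite)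
      ∧ (corona H).edgeSet.Nonempty :=
  ⟨corona_sidorenko H, corona_isBipartite H, corona_edgeSet_nonempty H⟩

end Vale.Agent.Results.P050.CoronaClosure
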