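import Vale.Agent.Lib.P050.Product

namespace Vale.Agent.Results.P050.ProductClosure

open Vale.Agent.Lib.P050

/-- Closure properties of Sidorenko's inequality under the product `gprod H F R` (a copy of
`F` at every vertex of `H`; for every edge `uv` of `H` and every `r ∈ R` the copies of `r` at
`u` and at `v` are joined).

(A) If `H` and `F` satisfy Sidorenko's inequality and
`hom(gprod K_2 F R, G) ≥ hom(F,G)^2 p(G)^|R|` for every `G`, then `gprod H F R` satisfies
Sidorenko's inequality.
(B) The case `F = K_2`, `R` one vertex: a pendant vertex at every vertex of `H`.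
(C) The case `F` the path `0 - 1 - 2`, `R = {0, 2}`: two copies of `H` in which every vertex
is joined to its twin by a path with two edges.
(D) `gprod H F R` is bipartite when `H` and `F` are. -/
theorem result :
    (∀ {V U : Type} [Finite V] [Nonempty V] [Finite U] (H : SimpleGraph V) (F : SimpleGraph U)
        (R : Set U), R.Nonempty → SidorenkoIneq H → SidorenkoIneq F →
        (∀ (W : Type) [Finite W] [Nonempty W] (G : SimpleGraph W),
          (homCount F G : ℝ) ^ 2
              * ((2 * (G.edgeSet.ncard : ℝ)) / (Nat.card W : ℝ) ^ 2) ^ R.ncard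
            ≤ (homCount (gprod (⊤ : SimpleGraph Bool) F R) G : ℝ)) →
        SidorenkoIneq (gprod H F R))
      ∧ (∀ {V : Type} [Finite V] [Nonempty V] (H : SimpleGraph V),
          SidorenkoIneq H → SidorenkoIneq (gprod H (⊤ : SimpleGraph Bool) {true}))
      ∧ (∀ {V : Type} [Finite V] [Nonempty V] (H : SimpleGraph V),
          SidorenkoIneq H → SidorenkoIneq (gprod H path3 {0, 2}))
      ∧ (∀ {V U : Type} (H : SimpleGraph V) (F : SimpleGraph U) (R : Set U),
          H.IsBipartite → F.IsBipartite → (gprod H F R).IsBipartite) :=
  ⟨fun H F R hR hH hF hdom => gprod_sidorenko H F R hR hH hF hdom,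
    fun H hH => gprod_top_bool_sidorenko H hH,
    fun H hH => gprod_path3_sidorenko H hH,
    fun H F R hH hF => gprod_isBipartite H F R hH hF⟩

end Vale.Agent.Results.P050.ProductClosure
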