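import Vale.Agent.Lib.P050.TwinPathsB

namespace Vale.Agent.Results.P050.TwinPaths

open Vale.Agent.Lib.P050

/-- Twin paths: for every `k`, if `H` satisfies Sidorenko's inequality then so does the graph
`gprod H P {0, last}`, where `P` is the path graph on the `k + 2` vertices `0, ..., k + 1`.
This graph consists of two copies of `H` (the vertices `(v, 0)` and the vertices `(v, last)`)
in which every vertex is joined to its twin by a path with `k + 1` edges of its own (through
the `k` new vertices `(v, 1), ..., (v, k)`). The graph is bipartite whenever `H` is. -/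
theorem result {V : Type} [Finite V] [Nonempty V] (H : SimpleGraph V) (k : ℕ) :
    (SidorenkoIneq H →
        SidorenkoIneq (gprod H (SimpleGraph.pathGraph (k + 1 + 1)) {0, Fin.last (k + 1)}))
      ∧ (H.IsBipartite →
        (gprod H (SimpleGraph.pathGraph (k + 1 + 1)) {0, Fin.last (k + 1)}).IsBipartite) :=
  ⟨fun hH => gprod_pathGraph_sidorenko H k hH,
    fun hH => gprod_isBipartite H (SimpleGraph.pathGraph (k + 1 + 1)) {0, Fin.last (k + 1)} hH
      (show (SimpleGraph.pathGraph (k + 1 + 1)).Colorable 2 from
        Fintype.card_bool ▸ (SimpleGraph.pathGraph.bicoloring (k + 1 + 1)).colorable)⟩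

end Vale.Agent.Results.P050.TwinPaths
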